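import Mathlib

namespace Vale.Agent.H15

/-- A group `G` is sofic: for every finite `F ⊆ G` and `ε > 0` there are `n > 0` and a map
`σ : G → Sym(n)` such that, for all `g, h ∈ F`, the permutations `σ (g * h)` and `σ g * σ h` differ
at no more than `ε n` points and, for every `g ≠ 1` in `F`, `σ g` fixes at most `ε n` points. -/
def IsSofic (G : Type*) [Group G] : Prop :=
  ∀ (F : Finset G) (ε : ℝ), 0 < ε → ∃ (n : ℕ) (σ : G → Equiv.Perm (Fin n)), 0 < n ∧
    (∀ g ∈ F, ∀ h ∈ F, (Nat.card {x : Fin n // σ (g * h) x ≠ σ g (σ h x)} : ℝ) ≤ ε * n) ∧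
    (∀ g ∈ F, g ≠ 1 → (Nat.card {x : Fin n // σ g x = x} : ℝ) ≤ ε * n)

end Vale.Agent.H15
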