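import Mathlib
import Vale.Agent.H15.SoficDef

namespace Vale.Agent.H15

universe u

/-- The smallest class of groups (in the universe `u`) that contains all sofic groups and is closed
under:

* local embeddability: `G` is in the class as soon as for every finite `S ⊆ G` there are a group
  `Q S` in the class and a map `f S : G → Q S`, injective on `S`, with
  `f S (g * h) = f S g * f S h` for `g, h ∈ S` (this covers subgroups, directed unions and
  fully residual membership);
* overgroups of finite index;
* extensions `N → G → G ⧸ N` with `G ⧸ N` in the class and `N` any normal subgroup all of whose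
  nontrivial finitely generated subgroups have a nontrivial homomorphism to `ℤ / p`
  (to `ℤ` when `p = 0`). -/
inductive InClass (p : ℕ) : (G : Type u) → [Group G] → Prop
  | sofic (G : Type u) [Group G] (h : IsSofic G) : InClass p G
  | locEmb (G : Type u) [Group G] (Q : Finset G → Type u) [∀ S, Group (Q S)]
      (f : ∀ S, G → Q S) (hQ : ∀ S, InClass p (Q S)) (hinj : ∀ S, Set.InjOn (f S) S)
      (hmul : ∀ S, ∀ g ∈ S, ∀ h ∈ S, f S (g * h) = f S g * f S h) : InClass p G
  | finiteIndex (G : Type u) [Group G] (H : Subgroup G) (hfi : H.FiniteIndex)
      (hH : InClass p H) : InClass p G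
  | extension (G : Type u) [Group G] (N : Subgroup G) [N.Normal]
      (hN : ∀ H : Subgroup G, H ≤ N → H.FG → H ≠ ⊥ →
        ∃ χ : H →* Multiplicative (ZMod p), χ ≠ 1)
      (hQ : InClass p (G ⧸ N)) : InClass p G

end Vale.Agent.H15
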