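import Mathlib

/-! Injectivity of matrices over group rings along subgroups all of whose nontrivial finitely
generated subgroups surject onto a cyclic group of order `p` (infinite cyclic if `p = 0`). -/

namespace Vale.Agent.H15

open MonoidAlgebra

variable {K : Type*} [Ring K] {G : Type*} [Group G]

/-- Push forward along `G → G ⧸ H`. -/
noncomputable def pr (H : Subgroup G) : MonoidAlgebra K G →+ MonoidAlgebra K (G ⧸ H) where
  toFun := mapDomain (QuotientGroup.mk : G → G ⧸ H)
  map_zero' := mapDomain_zero _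
  map_add' := mapDomain_add _

@[simp] lemma pr_single (H : Subgroup G) (g : G) (c : K) :
    pr H (single g c) = single (QuotientGroup.mk g : G ⧸ H) c := by
  simp [pr]

lemma pr_single_mul (H : Subgroup G) (g : G) (c : K) (x : MonoidAlgebra K G) :
    pr H (single g c * x) = c • mapDomain (fun q : G ⧸ H => g • q) (pr H x) := by
  induction x using MonoidAlgebra.induction_linear with
  | zero => simp
  | add x y hx hy => rw [mul_add, map_add, map_add, mapDomain_add, smul_add, hx, hy]
  | single g' c' =>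
    rw [single_mul_single, pr_single, pr_single, mapDomain_single, smul_single]
    rfl

lemma pr_mul_left {H : Subgroup G} {x : MonoidAlgebra K G} (hx : pr H x = 0)
    (a : MonoidAlgebra K G) : pr H (a * x) = 0 := by
  induction a using MonoidAlgebra.induction_linear with
  | zero => simp
  | add a b ha hb => rw [add_mul, map_add, ha, hb, add_zero]
  | single g c => rw [pr_single_mul, hx]; simp

lemma pr_mono {M H : Subgroup G} (hMH : M ≤ H) {x : MonoidAlgebra K G} (hx : pr M x = 0) :
    pr H x = 0 := by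
  have key : ∀ x : MonoidAlgebra K G, pr H x =
      mapDomain (Quotient.map' (s₁ := QuotientGroup.leftRel M) (s₂ := QuotientGroup.leftRel H) id
        (fun a b h => by
          rw [QuotientGroup.leftRel_apply] at h ⊢
          exact hMH h)) (pr M x) := by
    intro x
    induction x using MonoidAlgebra.induction_linear with
    | zero => simp
    | add x y hx hy => rw [map_add, map_add, mapDomain_add, hx, hy]
    | single g c => rw [pr_single, pr_single, mapDomain_single]; rfl
  rw [key, hx, mapDomain_zero]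

/-- Right translation by an element normalising `M` acts on `G ⧸ M`. -/
def rt (M : Subgroup G) (t : G) (ht : ∀ m ∈ M, t⁻¹ * m * t ∈ M) : G ⧸ M → G ⧸ M :=
  Quotient.map' (s₁ := QuotientGroup.leftRel M) (s₂ := QuotientGroup.leftRel M) (fun g => g * t)
    (fun a b h => by
      rw [QuotientGroup.leftRel_apply] at h ⊢
      have := ht _ h
      simpa [mul_assoc] using this)

lemma pr_mul_single {M : Subgroup G} {t : G} (ht : ∀ m ∈ M, t⁻¹ * m * t ∈ M)
    (x : MonoidAlgebra K G) :
    pr M (x * single t 1) = mapDomain (rt M t ht) (pr M x) := by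
  induction x using MonoidAlgebra.induction_linear with
  | zero => simp
  | add x y hx hy => rw [add_mul, map_add, map_add, mapDomain_add, hx, hy]
  | single g c => rw [single_mul_single, pr_single, pr_single, mapDomain_single, mul_one]; rfl

lemma pr_mul_sub_one {M : Subgroup G} {t : G} (ht : ∀ m ∈ M, t⁻¹ * m * t ∈ M)
    {x : MonoidAlgebra K G} (hx : pr M x = 0) : pr M (x * (single t 1 - 1)) = 0 := by
  rw [mul_sub, map_sub, mul_one, pr_mul_single ht, hx]
  simp

lemma pr_mul_sub_one_pow {M : Subgroup G} {t : G} (ht : ∀ m ∈ M, t⁻¹ * m * t ∈ M)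
    {x : MonoidAlgebra K G} (hx : pr M x = 0) (k : ℕ) :
    pr M (x * (single t 1 - 1) ^ k) = 0 := by
  induction k with
  | zero => simpa using hx
  | succ k ih => rw [pow_succ, ← mul_assoc]; exact pr_mul_sub_one ht ih

/-- Elements supported in `X * H`. -/
def SX (X : Set G) (H : Subgroup G) : AddSubgroup (MonoidAlgebra K G) where
  carrier := {y | ∀ g, y.coeff g ≠ 0 → ∃ z ∈ X, z⁻¹ * g ∈ H}
  zero_mem' := by intro g hg; simp at hg
  add_mem' := by
    intro a b ha hb g hg
    by_cases h : a.coeff g = 0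
    · exact hb g (fun h' => hg (by simp [h, h']))
    · exact ha g h
  neg_mem' := by
    intro a ha g hg
    refine ha g (fun h => hg (by simp [h]))

lemma single_mem_SX {X : Set G} {H : Subgroup G} {g z : G} (hz : z ∈ X) (h : z⁻¹ * g ∈ H)
    (c : K) : (single g c : MonoidAlgebra K G) ∈ SX X H := by
  classical
  intro g' hg'
  have : g = g' := by
    by_contra hne
    exact hg' (by simp [hne])
  exact ⟨z, hz, this ▸ h⟩

lemma SX_mul_single {X : Set G} {H : Subgroup G} {h : G} (hh : h ∈ H) (c : K)
    {y : MonoidAlgebra K G} (hy : y ∈ SX X H) : y * single h c ∈ SX X H := by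
  intro g hg
  have h1 : (y * single h c).coeff g = y.coeff (g * h⁻¹) * c := by
    rw [MonoidAlgebra.coeff_mul_single_apply]
  have h2 : y.coeff (g * h⁻¹) ≠ 0 := by
    intro h0
    apply hg
    rw [h1, h0, zero_mul]
  obtain ⟨z, hz, hz'⟩ := hy _ h2
  refine ⟨z, hz, ?_⟩
  have := H.mul_mem hz' hh
  simpa [mul_assoc] using this


/-- The data of a subgroup `M` of `H`, normalised by `t ∈ H`, with `H = ⟨t⟩ M` and `⟨t⟩ ∩ M`
generated by `t ^ p`. -/
structure CycStep (p : ℕ) (M H : Subgroup G) (t : G) : Prop where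
  le : M ≤ H
  mem : t ∈ H
  norm : ∀ m ∈ M, t⁻¹ * m * t ∈ M
  norm' : ∀ m ∈ M, t * m * t⁻¹ ∈ M
  gen : ∀ h ∈ H, ∃ k : ℤ, ∃ m ∈ M, h = t ^ k * m
  ord : ∀ k : ℤ, t ^ k ∈ M ↔ (p : ℤ) ∣ k

variable {p : ℕ} {M H : Subgroup G} {t : G}

lemma exists_pow_sub (hc : CycStep p M H t) (X : Set G) (k : ℤ) :
    ∀ y ∈ SX (K := K) X H, ∃ y' ∈ SX (K := K) X H,
      y * (single (t ^ k) 1 - 1) = y' * (single t 1 - 1) := by
  induction k using Int.induction_on with
  | zero =>
    intro y _
    exact ⟨0, zero_mem _, by simp [MonoidAlgebra.one_def]⟩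
  | succ k ih =>
    intro y hy
    obtain ⟨y', hy', h⟩ := ih y hy
    refine ⟨y' + y * single (t ^ (k : ℤ)) 1, add_mem hy' (SX_mul_single (H.zpow_mem hc.mem _) _ hy),
      ?_⟩
    have h1 : (single (t ^ ((k : ℤ) + 1)) 1 : MonoidAlgebra K G) =
        single (t ^ (k : ℤ)) 1 * single t 1 := by
      rw [single_mul_single, zpow_add_one, mul_one]
    rw [add_mul, ← h, h1]
    noncomm_ring
  | pred k ih =>
    intro y hy
    obtain ⟨y', hy', h⟩ := ih y hy
    refine ⟨y' - y * single (t ^ (-(k : ℤ) - 1)) 1,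
      sub_mem hy' (SX_mul_single (H.zpow_mem hc.mem _) _ hy), ?_⟩
    have h1 : (single (t ^ (-(k : ℤ))) 1 : MonoidAlgebra K G) =
        single (t ^ (-(k : ℤ) - 1)) 1 * single t 1 := by
      rw [single_mul_single, ← zpow_add_one, mul_one, sub_add_cancel]
    rw [sub_mul, ← h, h1]
    noncomm_ring

lemma pr_eq_of_mem {M : Subgroup G} {g g' : G} (h : g⁻¹ * g' ∈ M) (c : K) :
    pr M (single g c) = pr M (single g' c) := by
  rw [pr_single, pr_single]
  congr 1
  exact QuotientGroup.eq.2 h

/-- If `y` is supported in `X H` and vanishes in `K[G ⧸ H]` then modulo `M` it is a right multiple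
of `t - 1`. -/
lemma exists_mul_sub_one (hc : CycStep p M H t) (X : Set G) {y : MonoidAlgebra K G}
    (hy : y ∈ SX X H) (h0 : pr H y = 0) :
    ∃ y' ∈ SX (K := K) X H, pr M y = pr M (y' * (single t 1 - 1)) := by
  classical
  let J : AddSubgroup (MonoidAlgebra K G) :=
    { carrier := {y | ∃ y' ∈ SX (K := K) X H, pr M y = pr M (y' * (single t 1 - 1))}
      zero_mem' := ⟨0, zero_mem _, by simp⟩
      add_mem' := by
        rintro a b ⟨a', ha', ha⟩ ⟨b', hb', hb⟩
        exact ⟨a' + b', add_mem ha' hb', by rw [map_add, ha, hb, add_mul, map_add]⟩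
      neg_mem' := by
        rintro a ⟨a', ha', ha⟩
        exact ⟨-a', neg_mem ha', by rw [map_neg, ha, neg_mul, map_neg]⟩ }
  let o : G → G := fun g => (QuotientGroup.mk g : G ⧸ H).out
  have hsplit : y = y.coeff.sum fun g c => (single g c - single (o g) c) := by
    have h1 : (y.coeff.sum fun g c => (single (o g) c : MonoidAlgebra K G)) = 0 := by
      have h2 : mapDomain (fun q : G ⧸ H => q.out) (pr H y) =
          y.coeff.sum fun g c => (single (o g) c : MonoidAlgebra K G) := by
        have : ∀ y : MonoidAlgebra K G, mapDomain (fun q : G ⧸ H => q.out) (pr H y) =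
          mapDomain o y := by
          intro y
          induction y using MonoidAlgebra.induction_linear with
          | zero => simp
          | add x y hx hy => rw [map_add, mapDomain_add, mapDomain_add, hx, hy]
          | single g c => rw [pr_single, mapDomain_single, mapDomain_single]
        rw [this]
        conv_lhs => rw [← sum_coeff_single y, mapDomain_sum]
        simp only [mapDomain_single]
      rw [← h2, h0, mapDomain_zero]
    rw [Finsupp.sum_sub, h1, sub_zero, sum_coeff_single]
  have hmem : y ∈ J := by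
    rw [hsplit]
    refine AddSubgroup.sum_mem _ ?_
    intro g hg
    have hg' : y.coeff g ≠ 0 := by simpa using hg
    obtain ⟨z, hz, hzg⟩ := hy g hg'
    have ho : g⁻¹ * o g ∈ H := by
      have : (QuotientGroup.mk (o g) : G ⧸ H) = QuotientGroup.mk g := Quotient.out_eq' _
      exact QuotientGroup.eq.1 this.symm
    obtain ⟨k, m, hm, hk⟩ := hc.gen _ ho
    set c := y.coeff g
    obtain ⟨y', hy', h⟩ := exists_pow_sub hc X k (single g c : MonoidAlgebra K G)
      (single_mem_SX hz hzg c)
    refine ⟨-y', neg_mem hy', ?_⟩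
    have h3 : pr M (single (o g) c : MonoidAlgebra K G) = pr M (single (g * t ^ k) c) := by
      refine (pr_eq_of_mem ?_ c).symm
      have : o g = g * (t ^ k * m) := by rw [← hk]; group
      rw [this]
      simpa [mul_assoc] using hm
    rw [map_sub, h3, ← map_sub, neg_mul, ← h]
    congr 1
    rw [mul_sub, single_mul_single, mul_one, mul_one, neg_sub]
  exact hmem

lemma rt_injective {M : Subgroup G} {t : G} (ht : ∀ m ∈ M, t⁻¹ * m * t ∈ M)
    (ht' : ∀ m ∈ M, t * m * t⁻¹ ∈ M) : Function.Injective (rt M t ht) := by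
  intro a b hab
  induction a using QuotientGroup.induction_on with
  | H a =>
    induction b using QuotientGroup.induction_on with
    | H b =>
      have h1 : (QuotientGroup.mk (a * t) : G ⧸ M) = QuotientGroup.mk (b * t) := hab
      rw [QuotientGroup.eq] at h1 ⊢
      have := ht' _ h1
      simpa [mul_assoc] using this

/-- The coefficient function along the `t`-orbit of `g M`. -/
noncomputable def F (M : Subgroup G) (t g : G) (y : MonoidAlgebra K G) : ℤ → K :=
  fun n => (pr M y).coeff (QuotientGroup.mk (g * t ^ n))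

/-- The difference operator. -/
def D (f : ℤ → K) : ℤ → K := fun n => f (n - 1) - f n

lemma F_mul_single (hc : CycStep p M H t) (g : G) (y : MonoidAlgebra K G) (n : ℤ) :
    F M t g (y * single t 1) n = F M t g y (n - 1) := by
  unfold F
  rw [pr_mul_single hc.norm]
  have h1 : (QuotientGroup.mk (g * t ^ n) : G ⧸ M) =
      rt M t hc.norm (QuotientGroup.mk (g * t ^ (n - 1))) := by
    change _ = (QuotientGroup.mk (g * t ^ (n - 1) * t) : G ⧸ M)
    rw [mul_assoc, ← zpow_add_one, sub_add_cancel]
  rw [h1]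
  change Finsupp.mapDomain _ _ _ = _
  rw [Finsupp.mapDomain_apply (rt_injective hc.norm hc.norm')]

lemma F_mul_sub (hc : CycStep p M H t) (g : G) (y : MonoidAlgebra K G) :
    F M t g (y * (single t 1 - 1)) = D (F M t g y) := by
  funext n
  have : F M t g (y * (single t 1 - 1)) n = F M t g (y * single t 1) n - F M t g y n := by
    unfold F
    rw [mul_sub, map_sub, mul_one]
    simp
  rw [this, F_mul_single hc]
  rfl

lemma F_mul_pow (hc : CycStep p M H t) (g : G) (y : MonoidAlgebra K G) (k : ℕ) :
    F M t g (y * (single t 1 - 1) ^ k) = D^[k] (F M t g y) := by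
  induction k with
  | zero => simp
  | succ k ih => rw [pow_succ, ← mul_assoc, F_mul_sub hc, ih, Function.iterate_succ_apply']

/-- Finitely supported functions on the integers. -/
def FS (f : ℤ → K) : Prop := ∃ N : ℕ, ∀ n : ℤ, (N : ℤ) ≤ |n| → f n = 0

lemma FS.D {f : ℤ → K} (hf : FS f) : FS (D f) := by
  obtain ⟨N, hN⟩ := hf
  refine ⟨N + 1, fun n hn => ?_⟩
  unfold Vale.Agent.H15.D
  have h1 : (N : ℤ) ≤ |n| := by push_cast at hn; linarith
  have h2 : (N : ℤ) ≤ |n - 1| := by
    push_cast at hn
    have := abs_sub_abs_le_abs_sub n 1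
    rw [abs_one] at this
    linarith
  rw [hN _ h1, hN _ h2, sub_zero]

lemma FS.iter {f : ℤ → K} (hf : FS f) (k : ℕ) : FS (Vale.Agent.H15.D^[k] f) := by
  induction k with
  | zero => exact hf
  | succ k ih => rw [Function.iterate_succ_apply']; exact ih.D

lemma low_of_D {f : ℤ → K} (hf : FS f) {a : ℤ} (h : ∀ n < a, D f n = 0) :
    ∀ n < a, f n = 0 := by
  intro n hn
  obtain ⟨N, hN⟩ := hf
  have h1 : ∀ j : ℕ, f (n - j) = f n := by
    intro j
    induction j with
    | zero => simp
    | succ j ih =>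
      have h2 : D f (n - j) = 0 := h _ (by omega)
      unfold D at h2
      rw [sub_eq_zero] at h2
      rw [← ih, ← h2]
      congr 1
      push_cast
      ring
  rw [← h1 (N + n.natAbs)]
  apply hN
  have h3 : n ≤ |n| := le_abs_self n
  have h4 : (n.natAbs : ℤ) = |n| := Int.natCast_natAbs n
  have h5 : (0 : ℤ) ≤ N := Int.natCast_nonneg N
  rw [le_abs]
  right
  push_cast
  linarith

lemma high_of_D {f : ℤ → K} (hf : FS f) {b : ℤ} (h : ∀ n > b, D f n = 0) :
    ∀ n > b - 1, f n = 0 := by
  intro n hn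
  obtain ⟨N, hN⟩ := hf
  have h1 : ∀ j : ℕ, f (n + j) = f n := by
    intro j
    induction j with
    | zero => simp
    | succ j ih =>
      have h2 : D f (n + j + 1) = 0 := h _ (by omega)
      unfold D at h2
      rw [sub_eq_zero] at h2
      rw [← ih]
      rw [add_sub_cancel_right] at h2
      rw [h2]
      congr 1
      push_cast
      ring
  rw [← h1 (N + n.natAbs)]
  apply hN
  have h3 : -n ≤ |n| := neg_le_abs n
  have h4 : (n.natAbs : ℤ) = |n| := Int.natCast_natAbs n
  have h5 : (0 : ℤ) ≤ N := Int.natCast_nonneg N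
  rw [le_abs]
  left
  push_cast
  linarith

lemma low_of_iter {f : ℤ → K} (hf : FS f) {a : ℤ} (k : ℕ) (h : ∀ n < a, D^[k] f n = 0) :
    ∀ n < a, f n = 0 := by
  induction k with
  | zero => exact h
  | succ k ih =>
    rw [Function.iterate_succ_apply'] at h
    exact ih (low_of_D (hf.iter k) h)

lemma high_of_iter {f : ℤ → K} (hf : FS f) (k : ℕ) :
    ∀ {b : ℤ}, (∀ n > b, D^[k] f n = 0) → ∀ n > b - k, f n = 0 := by
  induction k with
  | zero => intro b h n hn; exact h n (by simpa using hn)
  | succ k ih =>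
    intro b h n hn
    rw [Function.iterate_succ_apply'] at h
    exact ih (high_of_D (hf.iter k) h) n (by push_cast at hn; linarith)

lemma eq_zero_of_iter {f : ℤ → K} (hf : FS f) (k : ℕ) (h : ∀ n, D^[k] f n = 0) (n : ℤ) :
    f n = 0 :=
  low_of_iter hf (a := n + 1) k (fun n _ => h n) n (by linarith)

lemma eq_zero_of_divisible {f : ℤ → K} (hf : FS f)
    (h : ∀ k : ℕ, ∃ f' : ℤ → K, FS f' ∧ f = D^[k] f') (n : ℤ) : f n = 0 := by
  obtain ⟨N, hN⟩ := hf
  obtain ⟨f', hf', he⟩ := h (2 * N + 1)
  have h1 : ∀ n < -(N : ℤ), D^[2 * N + 1] f' n = 0 := by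
    intro n hn
    rw [← he]
    apply hN
    rw [le_abs]
    right
    linarith
  have h2 : ∀ n > (N : ℤ), D^[2 * N + 1] f' n = 0 := by
    intro n hn
    rw [← he]
    apply hN
    rw [le_abs]
    left
    linarith
  have h3 := low_of_iter hf' _ h1
  have h4 := high_of_iter hf' _ h2
  have h5 : f' = 0 := by
    funext n
    by_cases hn : n < -(N : ℤ)
    · exact h3 n hn
    · refine h4 n ?_
      push_cast
      linarith
  rw [he, h5]
  have h6 : ∀ k : ℕ, D^[k] (0 : ℤ → K) = 0 := by
    intro k
    induction k with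
    | zero => rfl
    | succ k ih =>
      rw [Function.iterate_succ_apply', ih]
      funext n
      simp [D]
  rw [h6]
  rfl

lemma F_FS (hc : CycStep 0 M H t) (g : G) (y : MonoidAlgebra K G) : FS (F M t g y) := by
  classical
  have hinj : Function.Injective (fun n : ℤ => (QuotientGroup.mk (g * t ^ n) : G ⧸ M)) := by
    intro a b hab
    have h1 := QuotientGroup.eq.1 hab
    have h2 : t ^ (b - a) ∈ M := by
      have : (g * t ^ a)⁻¹ * (g * t ^ b) = t ^ (b - a) := by
        rw [zpow_sub]
        group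
      rwa [this] at h1
    have h3 := (hc.ord _).1 h2
    simp at h3
    linarith
  have hfin : {n : ℤ | F M t g y n ≠ 0}.Finite := by
    have h1 : {n : ℤ | F M t g y n ≠ 0} =
        (fun n : ℤ => (QuotientGroup.mk (g * t ^ n) : G ⧸ M)) ⁻¹'
          ((pr M y).coeff.support : Set (G ⧸ M)) := by
      ext n
      simp [F]
    rw [h1]
    exact Set.Finite.preimage hinj.injOn (Finset.finite_toSet _)
  obtain ⟨B, hB⟩ : ∃ B : ℕ, ∀ n ∈ hfin.toFinset, n.natAbs < B := by
    refine ⟨hfin.toFinset.sup (fun n => n.natAbs) + 1, fun n hn => ?_⟩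
    exact Nat.lt_succ_of_le (Finset.le_sup (f := fun n : ℤ => n.natAbs) hn)
  refine ⟨B, fun n hn => ?_⟩
  by_contra hne
  have h1 := hB n (by simpa using hne)
  have h2 : (n.natAbs : ℤ) = |n| := Int.natCast_natAbs n
  have h3 : (n.natAbs : ℤ) < B := by exact_mod_cast h1
  linarith

lemma pr_eq_zero_of_F (t : G) {y : MonoidAlgebra K G} (h : ∀ g, F M t g y 0 = 0) :
    pr M y = 0 := by
  ext q
  induction q using QuotientGroup.induction_on with
  | H g =>
    have := h g
    simpa [F] using this

lemma F_eq_of_pr_eq {y y' : MonoidAlgebra K G} (h : pr M y = pr M y') (t g : G) :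
    F M t g y = F M t g y' := by
  unfold F
  rw [h]

/-- characteristic zero: cancellation of powers of `t - 1` modulo `M`. -/
lemma cancel_zero (hc : CycStep 0 M H t) {y : MonoidAlgebra K G} (k : ℕ)
    (h : pr M (y * (single t 1 - 1) ^ k) = 0) : pr M y = 0 := by
  apply pr_eq_zero_of_F t
  intro g
  refine eq_zero_of_iter (F_FS hc g y) k ?_ 0
  intro n
  rw [← F_mul_pow hc]
  unfold F
  rw [h]
  simp

lemma separated_zero (hc : CycStep 0 M H t) {x : MonoidAlgebra K G}
    (h : ∀ k : ℕ, ∃ y : MonoidAlgebra K G, pr M x = pr M (y * (single t 1 - 1) ^ k)) :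
    pr M x = 0 := by
  apply pr_eq_zero_of_F t
  intro g
  refine eq_zero_of_divisible (F_FS hc g x) ?_ 0
  intro k
  obtain ⟨y, hy⟩ := h k
  exact ⟨F M t g y, F_FS hc g y, by rw [F_eq_of_pr_eq hy, F_mul_pow hc]⟩

lemma pr_mul_mem {M : Subgroup G} {s : G} (hs : s ∈ M) (y : MonoidAlgebra K G) :
    pr M (y * single s 1) = pr M y := by
  induction y using MonoidAlgebra.induction_linear with
  | zero => simp
  | add x y hx hy => rw [add_mul, map_add, map_add, hx, hy]
  | single g c =>
    rw [single_mul_single, mul_one]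
    exact (pr_eq_of_mem (by simpa using hs) c).symm

section prime

variable [Fact p.Prime] [CharP K p]

omit [Fact p.Prime] in
lemma charP_monoidAlgebra : CharP (MonoidAlgebra K G) p :=
  charP_of_injective_ringHom (f := (MonoidAlgebra.singleOneRingHom : K →+* MonoidAlgebra K G))
    (fun a b h => by
      have := congrArg (fun z : MonoidAlgebra K G => z.coeff 1) h
      simpa using this) p

lemma sub_one_pow_p (t : G) :
    (single t 1 - 1 : MonoidAlgebra K G) ^ p = single (t ^ p) 1 - 1 := by
  have : CharP (MonoidAlgebra K G) p := charP_monoidAlgebra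
  rw [sub_pow_char_of_commute (p := p) (Commute.one_right _), one_pow, single_pow, one_pow]

lemma sub_one_pow_pred (t : G) :
    (single t 1 - 1 : MonoidAlgebra K G) ^ (p - 1) =
      ∑ i ∈ Finset.range p, single (t ^ i) 1 := by
  have : CharP (MonoidAlgebra K G) p := charP_monoidAlgebra
  let _ : Algebra (ZMod p) (MonoidAlgebra K G) := ZMod.algebra _ p
  have hpoly : ((Polynomial.X - 1 : Polynomial (ZMod p)) ^ (p - 1)) =
      ∑ i ∈ Finset.range p, (Polynomial.X : Polynomial (ZMod p)) ^ i := by
    have hne : (Polynomial.X - 1 : Polynomial (ZMod p)) ≠ 0 := by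
      have := Polynomial.X_sub_C_ne_zero (1 : ZMod p)
      simpa using this
    apply mul_left_cancel₀ hne
    rw [mul_geom_sum, ← pow_succ', Nat.sub_add_cancel (Fact.out (p := p.Prime)).one_le]
    rw [sub_pow_char, one_pow]
  have h2 := congrArg (Polynomial.aeval (single t 1 : MonoidAlgebra K G)) hpoly
  rw [map_pow, map_sub, Polynomial.aeval_X, map_one, map_sum] at h2
  rw [h2]
  refine Finset.sum_congr rfl fun i _ => ?_
  rw [map_pow, Polynomial.aeval_X, single_pow, one_pow]

lemma separated_prime (hc : CycStep p M H t) {x : MonoidAlgebra K G}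
    (h : ∃ y : MonoidAlgebra K G, pr M x = pr M (y * (single t 1 - 1) ^ p)) :
    pr M x = 0 := by
  obtain ⟨y, hy⟩ := h
  rw [hy, sub_one_pow_p, mul_sub, mul_one, map_sub, pr_mul_mem, sub_self]
  have := (hc.ord (p : ℤ)).2 dvd_rfl
  simpa using this

omit [CharP K p] in
lemma pr_sum_coeff (hc : CycStep p M H t) (y : MonoidAlgebra K G) (g : G) :
    (pr M (y * ∑ i ∈ Finset.range p, single (t ^ i) 1)).coeff (QuotientGroup.mk g) =
      (pr H y).coeff (QuotientGroup.mk g) := by
  classical
  induction y using MonoidAlgebra.induction_linear with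
  | zero => simp
  | add x y hx hy => rw [add_mul, map_add, map_add, coeff_add, coeff_add, Finsupp.add_apply,
      Finsupp.add_apply, hx, hy]
  | single a c =>
    rw [Finset.mul_sum, map_sum, coeff_sum, Finsupp.finsetSum_apply]
    simp only [single_mul_single, mul_one, pr_single, coeff_single, Finsupp.single_apply,
      QuotientGroup.eq]
    by_cases hH : a⁻¹ * g ∈ H
    · rw [if_pos hH]
      obtain ⟨k, m, hm, hk⟩ := hc.gen _ hH
      have hp : (p : ℤ) ≠ 0 := by exact_mod_cast (Fact.out (p := p.Prime)).ne_zero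
      have hp' : (0 : ℤ) < p := by exact_mod_cast (Fact.out (p := p.Prime)).pos
      have hiff : ∀ i : ℕ, (a * t ^ i)⁻¹ * g ∈ M ↔ (p : ℤ) ∣ k - i := by
        intro i
        have h1 : (a * t ^ i)⁻¹ * g = t ^ (k - i) * m := by
          rw [mul_inv_rev, mul_assoc, hk, ← mul_assoc, zpow_sub, ← zpow_natCast]
          congr 1
          exact ((Commute.refl t).zpow_zpow _ _).inv_left.eq
        rw [h1, ← hc.ord, Subgroup.mul_mem_cancel_right _ hm]
      have hlt : (k % p).toNat < p := by
        have h1 := Int.emod_lt_of_pos k hp'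
        have h2 := Int.emod_nonneg k hp
        omega
      have hnn := Int.emod_nonneg k hp
      rw [Finset.sum_eq_single (k % p).toNat]
      · rw [if_pos]
        rw [hiff, Int.toNat_of_nonneg hnn]
        exact Int.dvd_self_sub_emod
      · intro i hi hne
        rw [if_neg]
        rw [hiff]
        intro hdvd
        apply hne
        have h1 : k % p = (i : ℤ) % p :=
          Int.emod_eq_emod_iff_emod_sub_eq_zero.2 (Int.emod_eq_zero_of_dvd hdvd)
        have h2 : (i : ℤ) % p = i := by
          apply Int.emod_eq_of_lt (by positivity)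
          exact_mod_cast Finset.mem_range.1 hi
        rw [h2] at h1
        rw [h1]
        simp
      · intro hn
        exact absurd (Finset.mem_range.2 hlt) hn
    · rw [if_neg hH]
      apply Finset.sum_eq_zero
      intro i _
      rw [if_neg]
      intro hM
      apply hH
      have h1 := H.mul_mem (H.pow_mem hc.mem i) (hc.le hM)
      have h2 : t ^ i * ((a * t ^ i)⁻¹ * g) = a⁻¹ * g := by group
      rwa [h2] at h1

lemma cancel_prime (hc : CycStep p M H t) {y : MonoidAlgebra K G} {k : ℕ} (hk : k < p)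
    (h : pr M (y * (single t 1 - 1) ^ k) = 0) : pr H y = 0 := by
  have h1 : pr M (y * (single t 1 - 1) ^ (p - 1)) = 0 := by
    have : p - 1 = k + (p - 1 - k) := by omega
    rw [this, pow_add, ← mul_assoc]
    exact pr_mul_sub_one_pow hc.norm h _
  rw [sub_one_pow_pred] at h1
  ext q
  induction q using QuotientGroup.induction_on with
  | H g =>
    rw [← pr_sum_coeff hc, h1]
    simp

end prime

/-- `A` is injective on vectors supported in `X H` modulo `H`. -/
def Inj {m n : ℕ} (A : Matrix (Fin m) (Fin n) (MonoidAlgebra K G)) (X : Fin n → Set G)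
    (H : Subgroup G) : Prop :=
  ∀ x : Fin n → MonoidAlgebra K G, (∀ i, x i ∈ SX (X i) H) →
    (∀ j, pr H (A.mulVec x j) = 0) → ∀ i, pr H (x i) = 0

lemma pr_mulVec_congr {m n : ℕ} (A : Matrix (Fin m) (Fin n) (MonoidAlgebra K G))
    {x y : Fin n → MonoidAlgebra K G} (h : ∀ i, pr M (x i) = pr M (y i)) (j : Fin m) :
    pr M (A.mulVec x j) = pr M (A.mulVec y j) := by
  have h1 : ∀ i, pr M (x i - y i) = 0 := fun i => by rw [map_sub, h i, sub_self]
  have h2 : pr M (A.mulVec x j) - pr M (A.mulVec y j) = 0 := by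
    rw [← map_sub]
    have : A.mulVec x j - A.mulVec y j = ∑ i, A j i * (x i - y i) := by
      simp [Matrix.mulVec, dotProduct, mul_sub]
    rw [this, map_sum]
    exact Finset.sum_eq_zero fun i _ => pr_mul_left (h1 i) _
  exact sub_eq_zero.1 h2

lemma mulVec_mul_right {m n : ℕ} (A : Matrix (Fin m) (Fin n) (MonoidAlgebra K G))
    (y : Fin n → MonoidAlgebra K G) (u : MonoidAlgebra K G) (j : Fin m) :
    A.mulVec (fun i => y i * u) j = A.mulVec y j * u := by
  simp [Matrix.mulVec, dotProduct, Finset.sum_mul, mul_assoc]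

lemma Inj.step {m n : ℕ} {A : Matrix (Fin m) (Fin n) (MonoidAlgebra K G)} {X : Fin n → Set G}
    [CharP K p] (hp : p.Prime ∨ p = 0) (hc : CycStep p M H t) (hI : Inj A X H) : Inj A X M := by
  intro x hx hA i
  have hx' : ∀ i, x i ∈ SX (X i) H := by
    intro i g hg
    obtain ⟨z, hz, hzg⟩ := hx i g hg
    exact ⟨z, hz, hc.le hzg⟩
  have main : ∀ k : ℕ, (p = 0 ∨ k ≤ p) → ∃ y : Fin n → MonoidAlgebra K G,
      (∀ i, y i ∈ SX (X i) H) ∧ ∀ i, pr M (x i) = pr M (y i * (single t 1 - 1) ^ k) := by
    intro k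
    induction k with
    | zero => intro _; exact ⟨x, hx', fun i => by simp⟩
    | succ k ih =>
      intro hk
      obtain ⟨y, hy, hxy⟩ := ih (by omega)
      have h1 : ∀ j, pr M (A.mulVec y j * (single t 1 - 1) ^ k) = 0 := by
        intro j
        rw [← mulVec_mul_right, ← pr_mulVec_congr A hxy]
        exact hA j
      have h2 : ∀ j, pr H (A.mulVec y j) = 0 := by
        intro j
        rcases hp with hp | hp
        · have : Fact p.Prime := ⟨hp⟩
          have hk' : k < p := by
            rcases hk with hk | hk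
            · exact absurd hk hp.ne_zero
            · omega
          exact cancel_prime hc hk' (h1 j)
        · subst hp
          exact pr_mono hc.le (cancel_zero hc k (h1 j))
      have h3 := hI y hy h2
      choose y' hy' hy'' using fun i => exists_mul_sub_one hc (X i) (hy i) (h3 i)
      refine ⟨y', hy', fun i => ?_⟩
      rw [hxy i, pow_succ', ← mul_assoc]
      have h4 : pr M (y i - y' i * (single t 1 - 1)) = 0 := by rw [map_sub, hy'' i, sub_self]
      have h5 := pr_mul_sub_one_pow hc.norm h4 k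
      rw [sub_mul, map_sub, sub_eq_zero] at h5
      exact h5
  rcases hp with hp | hp
  · have : Fact p.Prime := ⟨hp⟩
    obtain ⟨y, -, hy⟩ := main p (Or.inr le_rfl)
    exact separated_prime hc ⟨y i, hy i⟩
  · subst hp
    apply separated_zero hc
    intro k
    obtain ⟨y, -, hy⟩ := main k (Or.inl rfl)
    exact ⟨y i, hy i⟩

/-- Passing to a smaller subgroup with the same cosets on the support. -/
lemma Inj.shrink {m n : ℕ} {A : Matrix (Fin m) (Fin n) (MonoidAlgebra K G)} {X : Fin n → Set G}
    {H' : Subgroup G} (hle : H' ≤ H) (hX : ∀ i, ∀ z ∈ X i, ∀ z' ∈ X i, z⁻¹ * z' ∈ H → z⁻¹ * z' ∈ H')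
    (hI : Inj A X H) : Inj A X H' := by
  classical
  intro x hx hA i
  have h1 : pr H (x i) = 0 := by
    refine hI x (fun i g hg => ?_) (fun j => pr_mono hle (hA j)) i
    obtain ⟨z, hz, hzg⟩ := hx i g hg
    exact ⟨z, hz, hle hzg⟩
  -- on the support of `x i` the two coset relations agree
  have hrel : ∀ g g' : G, (x i).coeff g ≠ 0 → (x i).coeff g' ≠ 0 → g⁻¹ * g' ∈ H →
      g⁻¹ * g' ∈ H' := by
    intro g g' hg hg' hgg
    obtain ⟨z, hz, hzg⟩ := hx i g hg
    obtain ⟨z', hz', hzg'⟩ := hx i g' hg'
    have h2 : z⁻¹ * z' ∈ H := by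
      have : z⁻¹ * z' = (z⁻¹ * g) * (g⁻¹ * g') * (z'⁻¹ * g')⁻¹ := by group
      rw [this]
      exact H.mul_mem (H.mul_mem (hle hzg) hgg) (H.inv_mem (hle hzg'))
    have h3 := hX i z hz z' hz' h2
    have : g⁻¹ * g' = (z⁻¹ * g)⁻¹ * (z⁻¹ * z') * (z'⁻¹ * g') := by group
    rw [this]
    exact H'.mul_mem (H'.mul_mem (H'.inv_mem hzg) h3) hzg'
  ext q
  induction q using QuotientGroup.induction_on with
  | H g =>
    have key : ∀ (L : Subgroup G), (pr L (x i)).coeff (QuotientGroup.mk g) =
        ∑ a ∈ (x i).coeff.support, if a⁻¹ * g ∈ L then (x i).coeff a else 0 := by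
      intro L
      have : pr L (x i) = ∑ a ∈ (x i).coeff.support,
          (single (QuotientGroup.mk a : G ⧸ L) ((x i).coeff a) : MonoidAlgebra K (G ⧸ L)) := by
        conv_lhs => rw [← sum_coeff_single (x i)]
        rw [Finsupp.sum, map_sum]
        simp
      rw [this, coeff_sum, Finsupp.finsetSum_apply]
      simp only [coeff_single, Finsupp.single_apply, QuotientGroup.eq]
    rw [key]
    by_cases hex : ∃ b ∈ (x i).coeff.support, b⁻¹ * g ∈ H'
    · obtain ⟨b, hb, hbg⟩ := hex
      have h2 := key H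
      rw [h1] at h2
      simp only [coeff_zero, Finsupp.coe_zero, Pi.zero_apply] at h2 ⊢
      refine (Finset.sum_congr rfl fun a ha => ?_).trans h2.symm
      have hiff : a⁻¹ * g ∈ H' ↔ a⁻¹ * g ∈ H := by
        constructor
        · exact fun h => hle h
        · intro h
          have h3 : a⁻¹ * b ∈ H := by
            have : a⁻¹ * b = (a⁻¹ * g) * (b⁻¹ * g)⁻¹ := by group
            rw [this]
            exact H.mul_mem h (H.inv_mem (hle hbg))
          have h4 := hrel a b (by simpa using ha) (by simpa using hb) h3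
          have : a⁻¹ * g = (a⁻¹ * b) * (b⁻¹ * g) := by group
          rw [this]
          exact H'.mul_mem h4 hbg
      simp only [hiff]
    · push Not at hex
      simp only [coeff_zero, Finsupp.coe_zero, Pi.zero_apply]
      exact Finset.sum_eq_zero fun a ha => if_neg (hex a ha)

/-- Every nontrivial finitely generated subgroup of `N` surjects onto the cyclic group of order `p`
(the infinite cyclic group if `p = 0`), in the weak form of having a nontrivial homomorphism. -/
def LocInd (p : ℕ) (N : Subgroup G) : Prop :=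
  ∀ H : Subgroup G, H ≤ N → H.FG → H ≠ ⊥ → ∃ χ : H →* Multiplicative (ZMod p), χ ≠ 1

lemma exists_cycStep (hp : p.Prime ∨ p = 0) {H : Subgroup G}
    (χ : H →* Multiplicative (ZMod p)) (hχ : χ ≠ 1) :
    ∃ (M : Subgroup G) (t : G), CycStep p M H t ∧ M ≠ H := by
  classical
  obtain ⟨⟨y, hy⟩, hgen⟩ := IsCyclic.exists_generator (α := χ.range)
  obtain ⟨t, rfl⟩ := hy
  have hgen' : ∀ h : H, ∃ k : ℤ, χ h = χ t ^ k := by
    intro h
    obtain ⟨k, hk⟩ := Subgroup.mem_zpowers_iff.1 (hgen ⟨χ h, ⟨h, rfl⟩⟩)
    refine ⟨k, ?_⟩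
    have := congrArg Subtype.val hk
    simpa using this.symm
  have htne : χ t ≠ 1 := by
    intro h1
    apply hχ
    ext h
    obtain ⟨k, hk⟩ := hgen' h
    simp [hk, h1]
  have hmem : ∀ h : G, h ∈ χ.ker.map H.subtype ↔ ∃ hh : h ∈ H, χ ⟨h, hh⟩ = 1 := by
    intro h
    simp [Subgroup.mem_map, MonoidHom.mem_ker]
  refine ⟨χ.ker.map H.subtype, t, ⟨?_, t.2, ?_, ?_, ?_, ?_⟩, ?_⟩
  · intro h hh
    exact ((hmem h).1 hh).1
  · intro m hm
    obtain ⟨hm', h1⟩ := (hmem m).1 hm
    refine (hmem _).2 ⟨H.mul_mem (H.mul_mem (H.inv_mem t.2) hm') t.2, ?_⟩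
    have : (⟨(t : G)⁻¹ * m * t, H.mul_mem (H.mul_mem (H.inv_mem t.2) hm') t.2⟩ : H) =
        t⁻¹ * ⟨m, hm'⟩ * t := rfl
    rw [this, map_mul, map_mul, h1, mul_one, map_inv, inv_mul_cancel]
  · intro m hm
    obtain ⟨hm', h1⟩ := (hmem m).1 hm
    refine (hmem _).2 ⟨H.mul_mem (H.mul_mem t.2 hm') (H.inv_mem t.2), ?_⟩
    have : (⟨(t : G) * m * (t : G)⁻¹, H.mul_mem (H.mul_mem t.2 hm') (H.inv_mem t.2)⟩ : H) =
        t * ⟨m, hm'⟩ * t⁻¹ := rfl
    rw [this, map_mul, map_mul, h1, mul_one, map_inv, mul_inv_cancel]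
  · intro h hh
    obtain ⟨k, hk⟩ := hgen' ⟨h, hh⟩
    refine ⟨k, (t : G) ^ (-k) * h, ?_, ?_⟩
    · refine (hmem _).2 ⟨H.mul_mem (H.zpow_mem t.2 _) hh, ?_⟩
      have : (⟨(t : G) ^ (-k) * h, H.mul_mem (H.zpow_mem t.2 _) hh⟩ : H) =
          t ^ (-k) * ⟨h, hh⟩ := by
        ext
        simp
      rw [this, map_mul, map_zpow, hk, ← zpow_add, neg_add_cancel, zpow_zero]
    · rw [← mul_assoc, ← zpow_add, add_neg_cancel, zpow_zero, one_mul]
  · intro k
    have h1 : (t : G) ^ k ∈ χ.ker.map H.subtype ↔ χ t ^ k = 1 := by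
      rw [hmem]
      constructor
      · rintro ⟨hh, h2⟩
        rw [← map_zpow, ← h2]
        rfl
      · intro h2
        refine ⟨H.zpow_mem t.2 _, ?_⟩
        rw [← map_zpow] at h2
        rw [← h2]
        rfl
    rw [h1]
    set z : ZMod p := Multiplicative.toAdd (χ t) with hz
    have hz0 : z ≠ 0 := by
      intro h0
      apply htne
      rw [← ofAdd_toAdd (χ t), ← hz, h0, ofAdd_zero]
    have h2 : χ t ^ k = 1 ↔ k • z = 0 := by
      rw [← ofAdd_toAdd (χ t), ← hz, ← ofAdd_zsmul, ofAdd_eq_one]
    rw [h2, zsmul_eq_mul]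
    rcases hp with hp | hp
    · have : Fact p.Prime := ⟨hp⟩
      rw [mul_eq_zero, or_iff_left hz0, ZMod.intCast_zmod_eq_zero_iff_dvd]
    · subst hp
      have : NoZeroDivisors (ZMod 0) := inferInstanceAs (NoZeroDivisors ℤ)
      rw [mul_eq_zero, or_iff_left hz0]
      exact CharP.intCast_eq_zero_iff (ZMod 0) 0 k
  · intro hMH
    apply htne
    have : (t : G) ∈ χ.ker.map H.subtype := by rw [hMH]; exact t.2
    obtain ⟨_, h1⟩ := (hmem _).1 this
    exact h1

/-- The tower argument. -/
theorem Inj.bot {m n : ℕ} {A : Matrix (Fin m) (Fin n) (MonoidAlgebra K G)}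
    {X : Fin n → Finset G} [CharP K p] (hp : p.Prime ∨ p = 0) {N : Subgroup G}
    (hN : LocInd p N) (hI : Inj A (fun i => (X i : Set G)) N) :
    Inj A (fun i => (X i : Set G)) ⊥ := by
  classical
  let E : Finset G := Finset.univ.biUnion fun i => (X i ×ˢ X i).image fun z => z.1⁻¹ * z.2
  have hE : ∀ i, ∀ z ∈ X i, ∀ z' ∈ X i, z⁻¹ * z' ∈ E := by
    intro i z hz z' hz'
    simp only [E, Finset.mem_biUnion, Finset.mem_univ, true_and, Finset.mem_image,
      Finset.mem_product]
    exact ⟨i, (z, z'), ⟨hz, hz'⟩, rfl⟩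
  have main : ∀ c : ℕ, ∀ H : Subgroup G, H ≤ N → (E.filter (· ∈ H)).card = c →
      Inj A (fun i => (X i : Set G)) H → Inj A (fun i => (X i : Set G)) ⊥ := by
    intro c
    induction c using Nat.strong_induction_on with
    | _ c ih =>
      intro H hHN hc hIH
      let H' : Subgroup G := Subgroup.closure (E.filter (· ∈ H) : Set G)
      have hle : H' ≤ H := by
        rw [Subgroup.closure_le]
        intro x hx
        simp only [Finset.coe_filter, Set.mem_ofPred_eq] at hx
        exact hx.2
      have hI' : Inj A (fun i => (X i : Set G)) H' := by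
        refine hIH.shrink hle ?_
        intro i z hz z' hz' hzz
        apply Subgroup.subset_closure
        simp only [Finset.coe_filter, Set.mem_ofPred_eq]
        exact ⟨hE i z hz z' hz', hzz⟩
      by_cases hbot : H' = ⊥
      · rw [← hbot]
        exact hI'
      · have hfg : H'.FG := ⟨E.filter (· ∈ H), rfl⟩
        obtain ⟨χ, hχ⟩ := hN H' (hle.trans hHN) hfg hbot
        obtain ⟨M, t, hcyc, hne⟩ := exists_cycStep hp χ hχ
        have hIM := hI'.step hp hcyc
        refine ih (E.filter (· ∈ M)).card ?_ M (hcyc.le.trans (hle.trans hHN)) rfl hIM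
        rw [← hc]
        apply Finset.card_lt_card
        rw [Finset.ssubset_iff_of_subset]
        · by_contra hcon
          push Not at hcon
          apply hne
          apply le_antisymm hcyc.le
          rw [Subgroup.closure_le]
          intro x hx
          have h1 := hcon x (by exact_mod_cast hx)
          simp only [Finset.mem_filter] at h1
          exact h1.2
        · intro x hx
          simp only [Finset.mem_filter] at hx ⊢
          exact ⟨hx.1, hle (hcyc.le hx.2)⟩
  exact main _ N le_rfl rfl hI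

theorem matrix_dedekind [CharP K p] (hp : p.Prime ∨ p = 0) {N : Subgroup G} [N.Normal]
    (hN : LocInd p N) (n : ℕ)
    (hQ : IsDedekindFiniteMonoid (Matrix (Fin n) (Fin n) (MonoidAlgebra K (G ⧸ N)))) :
    IsDedekindFiniteMonoid (Matrix (Fin n) (Fin n) (MonoidAlgebra K G)) := by
  classical
  refine ⟨fun {A B} hAB => ?_⟩
  let φ : MonoidAlgebra K G →+* MonoidAlgebra K (G ⧸ N) :=
    MonoidAlgebra.mapDomainRingHom K (QuotientGroup.mk' N)
  have hφ : ∀ y, φ y = pr N y := fun y => rfl
  have h1 : φ.mapMatrix A * φ.mapMatrix B = 1 := by rw [← map_mul, hAB, map_one]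
  have h2 : φ.mapMatrix B * φ.mapMatrix A = 1 := mul_eq_one_comm.1 h1
  -- injectivity modulo `N`
  have hI : ∀ X : Fin n → Set G, Inj A X N := by
    intro X x _ hA i
    have h3 : (φ.mapMatrix A).mulVec (fun i => φ (x i)) = 0 := by
      funext j
      have h4 := hA j
      rw [← hφ] at h4
      have h5 : φ (A.mulVec x j) = (φ.mapMatrix A).mulVec (fun i => φ (x i)) j := by
        simp [Matrix.mulVec, dotProduct, map_sum, map_mul]
      rw [← h5, h4]
      rfl
    have h6 : (fun i => φ (x i)) = 0 := by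
      have h7 := congrArg (φ.mapMatrix B).mulVec h3
      rw [Matrix.mulVec_mulVec, h2, Matrix.one_mulVec, Matrix.mulVec_zero] at h7
      exact h7
    exact congrFun h6 i
  have hker : ∀ x : Fin n → MonoidAlgebra K G, A.mulVec x = 0 → x = 0 := by
    intro x hx
    have h3 : Inj A (fun i => ((x i).coeff.support : Set G)) ⊥ :=
      Inj.bot (X := fun i => (x i).coeff.support) hp hN (hI _)
    have h4 := h3 x (fun i g hg => ⟨g, by simpa using hg, by simp⟩) (fun j => by rw [hx]; simp)
    funext i
    have h5 := h4 i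
    have hinj : Function.Injective (QuotientGroup.mk : G → G ⧸ (⊥ : Subgroup G)) := by
      intro a b hab
      have := QuotientGroup.eq.1 hab
      rw [Subgroup.mem_bot] at this
      exact (inv_mul_eq_one.1 this)
    apply MonoidAlgebra.mapDomain_injective (R := K) hinj
    change pr ⊥ (x i) = pr ⊥ 0
    rw [h5, map_zero]
  have h8 : A * (B * A - 1) = 0 := by
    rw [mul_sub, ← mul_assoc, hAB, one_mul, mul_one, sub_self]
  have h9 : B * A - 1 = 0 := by
    refine Matrix.ext fun i j => ?_
    have h10 := hker (fun i => (B * A - 1) i j) (by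
      funext k
      have := congrFun (congrFun h8 k) j
      simpa [Matrix.mul_apply, Matrix.mulVec, dotProduct] using this)
    exact congrFun h10 i
  exact sub_eq_zero.1 h9

end Vale.Agent.H15
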