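import Mathlib
import Vale.Agent.H15.SoficDef

namespace Vale.Agent.H15

open MonoidAlgebra Finset

variable {G : Type*} [Group G]

/-- Good points of an approximate right action. -/
def Good {n : ℕ} (τ : G → Equiv.Perm (Fin n)) (S : Finset G) (x : Fin n) : Prop :=
  (∀ g ∈ S, ∀ h ∈ S, τ h (τ g x) = τ (g * h) x) ∧
  (∀ g ∈ S, ∀ h ∈ S, τ g x = τ h x → g = h) ∧ τ 1 x = x

lemma exists_good (hG : IsSofic G) (S : Finset G) {δ : ℝ} (hδ : 0 < δ) :
    ∃ (n : ℕ) (τ : G → Equiv.Perm (Fin n)), 0 < n ∧
      (Nat.card {x : Fin n // ¬ Good τ S x} : ℝ) ≤ δ * n := by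
  classical
  -- the finite set of relevant elements
  let T : Finset G := insert 1 (S.image (fun g => g⁻¹) ∪
    (S ×ˢ S).image (fun z => z.1 * z.2⁻¹) ∪ (S ×ˢ S).image (fun z => z.2⁻¹ * z.1) ∪ S)
  have hT1 : (1 : G) ∈ T := by simp [T]
  have hTinv : ∀ g ∈ S, g⁻¹ ∈ T := by
    intro g hg
    simp only [T, mem_insert, mem_union, mem_image]
    right; left; left; left
    exact ⟨g, hg, rfl⟩
  have hT2 : ∀ g ∈ S, ∀ h ∈ S, g * h⁻¹ ∈ T := by
    intro g hg h hh
    simp only [T, mem_insert, mem_union, mem_image, mem_product]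
    right; left; left; right
    exact ⟨(g, h), ⟨hg, hh⟩, rfl⟩
  set c : ℕ := (T ×ˢ T).card + T.card + 1 with hc
  have hcpos : (0 : ℝ) < c := by positivity
  obtain ⟨n, σ, hn, h1, h2⟩ := hG T (δ / c) (by positivity)
  refine ⟨n, fun g => σ g⁻¹, hn, ?_⟩
  -- bad sets
  let B1 : G × G → Finset (Fin n) := fun z => univ.filter fun x =>
    σ (z.1 * z.2) x ≠ σ z.1 (σ z.2 x)
  let B2 : G → Finset (Fin n) := fun g => univ.filter fun x => g ≠ 1 ∧ σ g x = x
  have hB1 : ∀ z ∈ T ×ˢ T, ((B1 z).card : ℝ) ≤ δ / c * n := by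
    intro z hz
    rw [mem_product] at hz
    have := h1 z.1 hz.1 z.2 hz.2
    rwa [Nat.card_eq_fintype_card, Fintype.card_subtype] at this
  have hB2 : ∀ g ∈ T, ((B2 g).card : ℝ) ≤ δ / c * n := by
    intro g hg
    by_cases hg1 : g = 1
    · have : B2 g = ∅ := by simp [B2, hg1]
      rw [this]
      simp only [card_empty, Nat.cast_zero]
      positivity
    · have := h2 g hg hg1
      rw [Nat.card_eq_fintype_card, Fintype.card_subtype] at this
      simpa [B2, hg1] using this
  have hsub : (univ.filter fun x => ¬ Good (fun g => σ g⁻¹) S x) ⊆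
      (T ×ˢ T).biUnion B1 ∪ T.biUnion B2 := by
    intro x hx
    by_contra hcon
    simp only [mem_union, mem_biUnion, mem_product, B1, B2, mem_filter, mem_univ, true_and,
      not_or, not_exists, not_and, not_not, Prod.forall, and_imp] at hcon
    obtain ⟨hm, hf⟩ := hcon
    simp only [mem_filter, mem_univ, true_and] at hx
    apply hx
    have hone : σ 1 x = x := by
      have := hm 1 1 hT1 hT1
      rw [mul_one] at this
      exact ((σ 1).injective this).symm
    refine ⟨?_, ?_, ?_⟩
    · intro g hg h hh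
      have := hm h⁻¹ g⁻¹ (hTinv h hh) (hTinv g hg)
      simp only [mul_inv_rev]
      exact this.symm
    · intro g hg h hh heq
      by_contra hne
      have heq' : σ g⁻¹ x = σ h⁻¹ x := heq
      -- `g⁻¹ * (g * h⁻¹) = h⁻¹`
      have h3 := hm g⁻¹ (g * h⁻¹) (hTinv g hg) (hT2 g hg h hh)
      rw [inv_mul_cancel_left] at h3
      rw [← heq'] at h3
      have h4 := (σ g⁻¹).injective h3
      exact hf (g * h⁻¹) (hT2 g hg h hh) (fun h5 => hne (mul_inv_eq_one.1 h5)) h4.symm
    · simpa using hone
  rw [Nat.card_eq_fintype_card, Fintype.card_subtype]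
  calc ((univ.filter fun x => ¬ Good (fun g => σ g⁻¹) S x).card : ℝ)
      ≤ (((T ×ˢ T).biUnion B1 ∪ T.biUnion B2).card : ℝ) := by
        exact_mod_cast card_le_card hsub
    _ ≤ (((T ×ˢ T).biUnion B1).card : ℝ) + ((T.biUnion B2).card : ℝ) := by
        exact_mod_cast card_union_le _ _
    _ ≤ (∑ z ∈ T ×ˢ T, ((B1 z).card : ℝ)) + ∑ g ∈ T, ((B2 g).card : ℝ) := by
        gcongr
        · exact_mod_cast card_biUnion_le
        · exact_mod_cast card_biUnion_le
    _ ≤ (∑ z ∈ T ×ˢ T, δ / c * n) + ∑ g ∈ T, δ / c * n := by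
        gcongr with z hz g hg
        · exact hB1 z hz
        · exact hB2 g hg
    _ = ((T ×ˢ T).card + T.card : ℝ) * (δ / c * n) := by
        rw [sum_const, sum_const, nsmul_eq_mul, nsmul_eq_mul]
        ring
    _ ≤ c * (δ / c * n) := by
        gcongr
        rw [hc]
        push_cast
        linarith
    _ = δ * n := by field_simp

/-- A separated subset of the good points. -/
lemma exists_separated {n : ℕ} (τ : G → Equiv.Perm (Fin n)) (S : Finset G) (P : Finset (Fin n))
    (h1 : (1 : G) ∈ S) :
    ∃ Y ⊆ P, (∀ y ∈ Y, ∀ y' ∈ Y, ∀ g ∈ S, ∀ h ∈ S, τ g y = τ h y' → y = y') ∧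
      P.card ≤ Y.card * (S.card * S.card) := by
  classical
  let C : Finset (Finset (Fin n)) := P.powerset.filter fun Y =>
    ∀ y ∈ Y, ∀ y' ∈ Y, ∀ g ∈ S, ∀ h ∈ S, τ g y = τ h y' → y = y'
  obtain ⟨Y, hY, hmax⟩ := exists_max_image C card ⟨∅, by simp [C]⟩
  simp only [C, mem_filter, mem_powerset] at hY hmax
  refine ⟨Y, hY.1, hY.2, ?_⟩
  have hcov : P ⊆ Y.biUnion fun y => (S ×ˢ S).image fun z => (τ z.1).symm (τ z.2 y) := by
    intro x hx
    simp only [mem_biUnion, mem_image, mem_product, Prod.exists]
    by_contra hcon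
    push Not at hcon
    have hxY : x ∉ Y := by
      intro hxY
      exact hcon x hxY 1 1 ⟨h1, h1⟩ (by simp)
    have hins := hmax (insert x Y) ⟨by
      intro z hz
      rcases mem_insert.1 hz with rfl | hz
      · exact hx
      · exact hY.1 hz, by
      intro y hy y' hy' g hg h hh he
      rcases mem_insert.1 hy with hy1 | hy1 <;> rcases mem_insert.1 hy' with hy2 | hy2
      · rw [hy1, hy2]
      · exfalso
        refine hcon y' hy2 g h ⟨hg, hh⟩ ?_
        rw [← he, hy1]; simp
      · exfalso
        refine hcon y hy1 h g ⟨hh, hg⟩ ?_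
        rw [he, hy2]; simp
      · exact hY.2 y hy1 y' hy2 g hg h hh he⟩
    rw [card_insert_of_notMem hxY] at hins
    omega
  calc P.card ≤ _ := card_le_card hcov
    _ ≤ ∑ y ∈ Y, ((S ×ˢ S).image fun z => (τ z.1).symm (τ z.2 y)).card := card_biUnion_le
    _ ≤ ∑ y ∈ Y, S.card * S.card := by
        apply sum_le_sum
        intro y _
        rw [← card_product]
        exact card_image_le
    _ = _ := by rw [sum_const, smul_eq_mul]

section linear

variable {K : Type*} [DivisionRing K] {d n : ℕ}

/-- The vector `Σ a_j(g) e_(j, x g)`. -/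
noncomputable def Th (τ : G → Equiv.Perm (Fin n)) (x : Fin n) (a : Fin d → MonoidAlgebra K G) :
    (Fin d × Fin n) →₀ K :=
  ∑ j, (a j).coeff.sum fun g c => Finsupp.single (j, τ g x) c

lemma Th_add (τ : G → Equiv.Perm (Fin n)) (x : Fin n) (a b : Fin d → MonoidAlgebra K G) :
    Th τ x (a + b) = Th τ x a + Th τ x b := by
  classical
  unfold Th
  rw [← Finset.sum_add_distrib]
  refine Finset.sum_congr rfl fun j _ => ?_
  rw [Pi.add_apply, coeff_add, Finsupp.sum_add_index']
  · intro g; simp
  · intro g c c'; simp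

lemma Th_single (τ : G → Equiv.Perm (Fin n)) (x : Fin n) (j : Fin d) (g : G) (c : K) :
    Th τ x (Pi.single j (single g c)) = Finsupp.single (j, τ g x) c := by
  classical
  unfold Th
  rw [Finset.sum_eq_single j]
  · simp
  · intro k _ hk
    simp [Pi.single_eq_of_ne hk]
  · intro h; exact absurd (mem_univ j) h

/-- The left linear map attached to a matrix. -/
noncomputable def Rho (τ : G → Equiv.Perm (Fin n)) (A : Matrix (Fin d) (Fin d) (MonoidAlgebra K G)) :
    ((Fin d × Fin n) →₀ K) →ₗ[K] ((Fin d × Fin n) →₀ K) :=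
  Finsupp.linearCombination K fun z => Th τ z.2 (A z.1)

omit [Group G] in
lemma Rho_single (τ : G → Equiv.Perm (Fin n)) (A : Matrix (Fin d) (Fin d) (MonoidAlgebra K G))
    (i : Fin d) (x : Fin n) (c : K) :
    Rho τ A (Finsupp.single (i, x) c) = c • Th τ x (A i) := by
  simp [Rho]

omit [Group G] in
lemma Th_smul (τ : G → Equiv.Perm (Fin n)) (x : Fin n) (c : K) (a : Fin d → MonoidAlgebra K G) :
    c • Th τ x a = Th τ x (c • a) := by
  unfold Th
  rw [Finset.smul_sum]
  refine Finset.sum_congr rfl fun j _ => ?_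
  rw [Pi.smul_apply, coeff_smul, Finsupp.sum_smul_index' (by intro g; simp), Finsupp.smul_sum]
  simp

/-- `Th` as an additive map. -/
noncomputable def ThHom (τ : G → Equiv.Perm (Fin n)) (x : Fin n) :
    (Fin d → MonoidAlgebra K G) →+ ((Fin d × Fin n) →₀ K) where
  toFun := Th τ x
  map_zero' := by simp [Th]
  map_add' := Th_add τ x

lemma sum_single_mul (c : K) (g : G) (b : MonoidAlgebra K G) {V : Type*} [AddCommMonoid V]
    (Φ : G → K →+ V) :
    (single g c * b).coeff.sum (fun h r => Φ h r) = b.coeff.sum fun h r => Φ (g * h) (c * r) := by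
  classical
  induction b using MonoidAlgebra.induction_linear with
  | zero => simp
  | add x y hx hy =>
    rw [mul_add, coeff_add, coeff_add, Finsupp.sum_add_index' (by simp) (by simp), hx, hy,
      Finsupp.sum_add_index' (by simp) (by simp [mul_add])]
  | single h r =>
    rw [single_mul_single, coeff_single, coeff_single, Finsupp.sum_single_index,
      Finsupp.sum_single_index]
    · simp
    · simp

lemma Th_single_mul (τ : G → Equiv.Perm (Fin n)) (S : Finset G) {x : Fin n} (hx : Good τ S x)
    {g : G} (hg : g ∈ S) (c : K) (b : Fin d → MonoidAlgebra K G)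
    (hb : ∀ j, (b j).coeff.support ⊆ S) :
    c • Th τ (τ g x) b = Th τ x (fun k => single g c * b k) := by
  classical
  unfold Th
  rw [Finset.smul_sum]
  refine Finset.sum_congr rfl fun k _ => ?_
  have h1 := sum_single_mul c g (b k)
    (fun h => (Finsupp.singleAddHom (k, τ h x) : K →+ ((Fin d × Fin n) →₀ K)))
  simp only [Finsupp.singleAddHom_apply] at h1
  rw [h1, Finsupp.smul_sum]
  refine Finset.sum_congr rfl fun h hh => ?_
  change c • Finsupp.single (k, τ h (τ g x)) _ = Finsupp.single (k, τ (g * h) x) (c * _)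
  rw [hx.1 g hg h (hb k hh), Finsupp.smul_single, smul_eq_mul]

/-- The crucial compatibility at good points. -/
lemma Rho_Th (τ : G → Equiv.Perm (Fin n)) (S : Finset G) {x : Fin n} (hx : Good τ S x)
    (A : Matrix (Fin d) (Fin d) (MonoidAlgebra K G)) (hA : ∀ i j, (A i j).coeff.support ⊆ S)
    (a : Fin d → MonoidAlgebra K G) (ha : ∀ j, (a j).coeff.support ⊆ S) :
    Rho τ A (Th τ x a) = Th τ x (Matrix.vecMul a A) := by
  classical
  have hexp : a = ∑ j, ∑ g ∈ (a j).coeff.support, Pi.single j (single g ((a j).coeff g)) := by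
    funext k
    rw [Finset.sum_apply, Finset.sum_eq_single k]
    · rw [Finset.sum_apply]
      simp only [Pi.single_eq_same]
      exact (sum_coeff_single (a k)).symm
    · intro j _ hj
      rw [Finset.sum_apply]
      exact Finset.sum_eq_zero fun g _ => by rw [Pi.single_eq_of_ne (Ne.symm hj)]
    · intro h; exact absurd (mem_univ k) h
  have h1 : Th τ x a = ∑ j, ∑ g ∈ (a j).coeff.support,
      Finsupp.single (j, τ g x) ((a j).coeff g) := rfl
  have h2 : Matrix.vecMul a A = ∑ j, ∑ g ∈ (a j).coeff.support,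
      (fun k => single g ((a j).coeff g) * A j k) := by
    funext k
    rw [Finset.sum_apply]
    simp only [Matrix.vecMul, dotProduct]
    refine Finset.sum_congr rfl fun j _ => ?_
    rw [Finset.sum_apply, ← Finset.sum_mul]
    congr 1
    exact (sum_coeff_single (a j)).symm
  rw [h1, h2, map_sum]
  change _ = ThHom τ x _
  rw [map_sum]
  refine Finset.sum_congr rfl fun j _ => ?_
  rw [map_sum, map_sum]
  refine Finset.sum_congr rfl fun g hg => ?_
  rw [Rho_single, Th_single_mul τ S hx (ha j hg) _ _ (hA j)]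
  rfl

/-- Good points contribute nonzero vectors. -/
lemma Th_apply (τ : G → Equiv.Perm (Fin n)) (S : Finset G) {x : Fin n} (hx : Good τ S x)
    (a : Fin d → MonoidAlgebra K G) (ha : ∀ j, (a j).coeff.support ⊆ S) {g : G} (hg : g ∈ S)
    (j : Fin d) : Th τ x a (j, τ g x) = (a j).coeff g := by
  classical
  unfold Th
  rw [Finsupp.finsetSum_apply, Finset.sum_eq_single j]
  · rw [Finsupp.sum, Finsupp.finsetSum_apply]
    by_cases hg' : g ∈ (a j).coeff.support
    · rw [Finset.sum_eq_single g]
      · simp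
      · intro h hh hne
        rw [Finsupp.single_apply, if_neg]
        intro he
        rw [Prod.mk.injEq] at he
        exact hne (hx.2.1 h (ha j hh) g hg he.2)
      · intro h; exact absurd hg' h
    · rw [Finset.sum_eq_zero]
      · rw [Finsupp.notMem_support_iff] at hg'
        exact hg'.symm
      · intro h hh
        rw [Finsupp.single_apply, if_neg]
        intro he
        rw [Prod.mk.injEq] at he
        exact hg' ((hx.2.1 h (ha j hh) g hg he.2) ▸ hh)
  · intro k _ hk
    rw [Finsupp.sum, Finsupp.finsetSum_apply]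
    refine Finset.sum_eq_zero fun h _ => ?_
    rw [Finsupp.single_apply, if_neg]
    intro he
    rw [Prod.mk.injEq] at he
    exact hk he.1
  · intro h; exact absurd (mem_univ j) h

omit [Group G] in
lemma Th_support (τ : G → Equiv.Perm (Fin n)) (S : Finset G) (x : Fin n)
    (a : Fin d → MonoidAlgebra K G) (ha : ∀ j, (a j).coeff.support ⊆ S) (z : Fin d × Fin n)
    (hz : Th τ x a z ≠ 0) : ∃ g ∈ S, τ g x = z.2 := by
  classical
  by_contra hcon
  push Not at hcon
  apply hz
  unfold Th
  rw [Finsupp.finsetSum_apply]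
  refine Finset.sum_eq_zero fun k _ => ?_
  rw [Finsupp.sum, Finsupp.finsetSum_apply]
  refine Finset.sum_eq_zero fun h hh => ?_
  rw [Finsupp.single_apply, if_neg]
  intro he
  exact hcon h (ha k hh) (by rw [← he])


theorem sofic_matrix (hG : IsSofic G) (A B : Matrix (Fin d) (Fin d) (MonoidAlgebra K G))
    (hAB : A * B = 1) : B * A = 1 := by
  classical
  by_contra hne
  set f : Matrix (Fin d) (Fin d) (MonoidAlgebra K G) := 1 - B * A with hf
  have hf0 : f ≠ 0 := fun h => hne (sub_eq_zero.1 h).symm
  have hfB : f * B = 0 := by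
    rw [hf, sub_mul, one_mul, mul_assoc, hAB, mul_one, sub_self]
  obtain ⟨i0, j0, hij⟩ : ∃ i j, f i j ≠ 0 := by
    by_contra hcon
    push Not at hcon
    exact hf0 (Matrix.ext hcon)
  obtain ⟨g0, hg0⟩ : ∃ g, (f i0 j0).coeff g ≠ 0 := by
    by_contra hcon
    push Not at hcon
    apply hij
    ext g
    simpa using hcon g
  let U : Matrix (Fin d) (Fin d) (MonoidAlgebra K G) → Finset G := fun C =>
    univ.biUnion fun z : Fin d × Fin d => (C z.1 z.2).coeff.support
  have hU : ∀ C i j, (C i j).coeff.support ⊆ U C := fun C i j =>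
    subset_biUnion_of_mem (u := fun z : Fin d × Fin d => (C z.1 z.2).coeff.support)
      (mem_univ (i, j))
  let S : Finset G := insert 1 (U A ∪ U B ∪ U f)
  have hSA : ∀ i j, (A i j).coeff.support ⊆ S := fun i j =>
    (hU A i j).trans (subset_union_left.trans (subset_union_left.trans (subset_insert _ _)))
  have hSB : ∀ i j, (B i j).coeff.support ⊆ S := fun i j =>
    (hU B i j).trans (subset_union_right.trans (subset_union_left.trans (subset_insert _ _)))
  have hSf : ∀ i j, (f i j).coeff.support ⊆ S := fun i j =>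
    (hU f i j).trans (subset_union_right.trans (subset_insert _ _))
  have h1S : (1 : G) ∈ S := mem_insert_self _ _
  have hg0S : g0 ∈ S := hSf i0 j0 (by simpa using hg0)
  have hs : 0 < S.card := card_pos.2 ⟨1, h1S⟩
  set c : ℝ := 2 * (1 + d * (S.card * S.card)) with hc
  have hcpos : 0 < c := by positivity
  obtain ⟨n, τ, hn, hbad⟩ := exists_good hG S (δ := 1 / c) (by positivity)
  let P : Finset (Fin n) := univ.filter fun x => Good τ S x
  obtain ⟨Y, hYP, hYsep, hYcard⟩ := exists_separated τ S P h1S
  have hP : ∀ x ∈ P, Good τ S x := fun x hx => (mem_filter.1 hx).2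
  -- range of `Rho τ B`
  have hrange : ∀ z : Fin d × P, Finsupp.single (z.1, (z.2 : Fin n)) (1 : K) ∈
      LinearMap.range (Rho τ B) := by
    rintro ⟨i, x⟩
    refine ⟨Th τ x (A i), ?_⟩
    rw [Rho_Th τ S (hP x x.2) B hSB (A i) (hSA i)]
    have h1 : Matrix.vecMul (A i) B = Pi.single i 1 := by
      have : Matrix.vecMul (A i) B = (A * B) i := rfl
      rw [this, hAB]
      funext k
      rw [Matrix.one_apply]
      by_cases hk : i = k
      · subst hk; simp
      · rw [if_neg hk, Pi.single_eq_of_ne (Ne.symm hk)]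
    rw [h1]
    change Th τ x (Pi.single i (single 1 1)) = _
    rw [Th_single, (hP x x.2).2.2]
  have hfin : Module.Finite K ((Fin d × Fin n) →₀ K) := inferInstance
  have hdim1 : d * P.card ≤ Module.finrank K (LinearMap.range (Rho (K := K) τ B)) := by
    let b : Fin d × P → LinearMap.range (Rho (K := K) τ B) := fun z => ⟨_, hrange z⟩
    have hb : LinearIndependent K b := by
      apply LinearIndependent.of_comp (LinearMap.range (Rho (K := K) τ B)).subtype
      have h1 : LinearIndependent K (fun z : Fin d × Fin n =>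
          (Finsupp.single z (1 : K) : (Fin d × Fin n) →₀ K)) :=
        (Finsupp.basisSingleOne (R := K) (ι := Fin d × Fin n)).linearIndependent
      have hinj : Function.Injective (fun z : Fin d × P => (z.1, (z.2 : Fin n))) := by
        rintro ⟨i, x⟩ ⟨j, y⟩ h
        simp only [Prod.mk.injEq] at h
        exact Prod.ext h.1 (Subtype.ext h.2)
      exact h1.comp _ hinj
    have := hb.fintype_card_le_finrank
    simpa using this
  have hker : ∀ y : Y, Th τ (y : Fin n) (f i0) ∈ LinearMap.ker (Rho τ B) := by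
    intro y
    rw [LinearMap.mem_ker, Rho_Th τ S (hP y (hYP y.2)) B hSB (f i0) (hSf i0)]
    have h1 : Matrix.vecMul (f i0) B = 0 := by
      have : Matrix.vecMul (f i0) B = (f * B) i0 := rfl
      rw [this, hfB]
      rfl
    rw [h1]
    simp [Th]
  have hdim2 : Y.card ≤ Module.finrank K (LinearMap.ker (Rho (K := K) τ B)) := by
    let b : Y → LinearMap.ker (Rho (K := K) τ B) := fun z => ⟨_, hker z⟩
    have hb : LinearIndependent K b := by
      apply LinearIndependent.of_comp (LinearMap.ker (Rho (K := K) τ B)).subtype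
      rw [Fintype.linearIndependent_iff]
      intro w hw y
      have h1 := congrArg (fun v : (Fin d × Fin n) →₀ K => v (j0, τ g0 y)) hw
      simp only [Function.comp_apply, Submodule.subtype_apply, Finsupp.finsetSum_apply,
        Finsupp.coe_zero, Pi.zero_apply, Finsupp.smul_apply, smul_eq_mul, b] at h1
      rw [Finset.sum_eq_single y] at h1
      · rw [Th_apply τ S (hP y (hYP y.2)) (f i0) (hSf i0) hg0S j0] at h1
        exact (mul_eq_zero.1 h1).resolve_right hg0
      · intro y' _ hne'
        have h2 : Th τ (y' : Fin n) (f i0) (j0, τ g0 y) = 0 := by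
          by_contra h3
          obtain ⟨g, hg, hgy⟩ := Th_support τ S _ _ (hSf i0) _ h3
          exact hne' (Subtype.ext (hYsep y' y'.2 y y.2 g hg g0 hg0S hgy))
        rw [h2, mul_zero]
      · intro h; exact absurd (mem_univ y) h
    have := hb.fintype_card_le_finrank
    simpa using this
  have hrn := LinearMap.finrank_range_add_finrank_ker (Rho (K := K) τ B)
  have hV : Module.finrank K ((Fin d × Fin n) →₀ K) = d * n := by
    simp
  rw [hV] at hrn
  have hcompl : (Nat.card {x : Fin n // ¬ Good τ S x} : ℝ) = n - P.card := by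
    rw [Nat.card_eq_fintype_card, Fintype.card_subtype]
    have h1 := Finset.card_filter_add_card_filter_not (s := (univ : Finset (Fin n)))
      (fun x => Good τ S x)
    rw [Finset.card_univ, Fintype.card_fin] at h1
    have h2 : ((univ.filter fun x => Good τ S x).card : ℝ) +
      ((univ.filter fun x => ¬ Good τ S x).card : ℝ) = n := by exact_mod_cast h1
    simp only [P]
    linarith
  rw [hcompl] at hbad
  have hYr : (Y.card : ℝ) ≤ d * (n - P.card) := by
    have h1 : d * P.card + Y.card ≤ d * n := by omega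
    have h2 : (d * P.card + Y.card : ℝ) ≤ d * n := by exact_mod_cast h1
    linarith
  have hPr : (P.card : ℝ) ≤ Y.card * (S.card * S.card) := by exact_mod_cast hYcard
  have hnr : (0 : ℝ) < n := by exact_mod_cast hn
  have hsr : (0 : ℝ) < S.card := by exact_mod_cast hs
  -- combine
  have h3 : (P.card : ℝ) ≤ d * (S.card * S.card) * (1 / c * n) := by
    calc (P.card : ℝ) ≤ Y.card * (S.card * S.card) := hPr
      _ ≤ (d * (n - P.card)) * (S.card * S.card) := by gcongr
      _ ≤ (d * (1 / c * n)) * (S.card * S.card) := by gcongr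
      _ = _ := by ring
  have h4 : (n : ℝ) ≤ (1 + d * (S.card * S.card)) * (1 / c * n) := by linarith
  have h5 : (1 + d * (S.card * S.card)) * (1 / c * n) = n / 2 := by
    rw [hc]
    field_simp
  rw [h5] at h4
  linarith

theorem sofic_stablyFinite (hG : IsSofic G) : IsStablyFiniteRing (MonoidAlgebra K G) :=
  ⟨fun _ => ⟨fun {A B} h => sofic_matrix hG A B h⟩⟩

end linear

end Vale.Agent.H15
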