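import Mathlib
import Vale.Agent.H15.Conserv
import Vale.Agent.H15.Sofic
import Vale.Agent.H15.ClassDef

namespace Vale.Agent.H15

open MonoidAlgebra Finset

section locEmb

variable {K : Type*} [DivisionRing K] {G : Type*} [Group G] {Q : Type*} [Group Q]

lemma mapDomain_mul_of_local (f : G → Q) (S : Finset G)
    (hmul : ∀ g ∈ S, ∀ h ∈ S, f (g * h) = f g * f h) (x y : MonoidAlgebra K G)
    (hx : x.coeff.support ⊆ S) (hy : y.coeff.support ⊆ S) :
    mapDomain f (x * y) = mapDomain f x * mapDomain f y := by
  classical
  have hx' : x = ∑ g ∈ x.coeff.support, single g (x.coeff g) := (sum_coeff_single x).symm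
  have hy' : y = ∑ g ∈ y.coeff.support, single g (y.coeff g) := (sum_coeff_single y).symm
  have hsum : ∀ {ι : Type _} (s : Finset ι) (F : ι → MonoidAlgebra K G),
      mapDomain f (∑ i ∈ s, F i) = ∑ i ∈ s, mapDomain f (F i) := by
    intro ι s F
    induction s using Finset.induction_on with
    | empty => simp
    | insert i s hi ih => rw [sum_insert hi, sum_insert hi, mapDomain_add, ih]
  have h1 : x * y = ∑ g ∈ x.coeff.support, ∑ h ∈ y.coeff.support,
      single (g * h) (x.coeff g * y.coeff h) := by
    conv_lhs => rw [hx', hy']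
    rw [Finset.sum_mul]
    refine sum_congr rfl fun g _ => ?_
    rw [Finset.mul_sum]
    refine sum_congr rfl fun h _ => ?_
    rw [single_mul_single]
  have h2 : mapDomain f x = ∑ g ∈ x.coeff.support, single (f g) (x.coeff g) := by
    conv_lhs => rw [hx']
    rw [hsum]
    simp
  have h3 : mapDomain f y = ∑ g ∈ y.coeff.support, single (f g) (y.coeff g) := by
    conv_lhs => rw [hy']
    rw [hsum]
    simp
  rw [h1, h2, h3, hsum, Finset.sum_mul]
  refine sum_congr rfl fun g hg => ?_
  rw [hsum, Finset.mul_sum]
  refine sum_congr rfl fun h hh => ?_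
  rw [mapDomain_single, single_mul_single, hmul g (hx hg) h (hy hh)]

lemma mapDomain_eq_zero_of_local (f : G → Q) (S : Finset G) (hinj : Set.InjOn f S)
    (x : MonoidAlgebra K G) (hx : x.coeff.support ⊆ S) (h0 : mapDomain f x = 0) : x = 0 := by
  classical
  ext g
  by_cases hg : g ∈ x.coeff.support
  · have h1 : (mapDomain f x).coeff (f g) = x.coeff g := by
      change Finsupp.mapDomain f x.coeff (f g) = _
      rw [Finsupp.mapDomain, Finsupp.sum, Finsupp.finsetSum_apply, sum_eq_single g]
      · simp
      · intro h hh hne
        rw [Finsupp.single_apply, if_neg]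
        intro he
        exact hne (hinj (hx hh) (hx hg) he)
      · intro h; exact absurd hg h
    rw [h0] at h1
    simpa using h1.symm
  · simpa using hg

theorem dedekind_of_locEmb {n : ℕ}
    (h : ∀ S : Finset G, ∃ (Q : Type*) (_ : Group Q) (f : G → Q),
      IsDedekindFiniteMonoid (Matrix (Fin n) (Fin n) (MonoidAlgebra K Q)) ∧ Set.InjOn f S ∧
      ∀ g ∈ S, ∀ h ∈ S, f (g * h) = f g * f h) :
    IsDedekindFiniteMonoid (Matrix (Fin n) (Fin n) (MonoidAlgebra K G)) := by
  classical
  refine ⟨fun {A B} hAB => ?_⟩
  let U : Matrix (Fin n) (Fin n) (MonoidAlgebra K G) → Finset G := fun C =>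
    univ.biUnion fun z : Fin n × Fin n => (C z.1 z.2).coeff.support
  have hU : ∀ C i j, (C i j).coeff.support ⊆ U C := fun C i j =>
    subset_biUnion_of_mem (u := fun z : Fin n × Fin n => (C z.1 z.2).coeff.support)
      (mem_univ (i, j))
  let S : Finset G := insert 1 (U A ∪ U B ∪ U (B * A - 1))
  have hSA : ∀ i j, (A i j).coeff.support ⊆ S := fun i j =>
    (hU A i j).trans (subset_union_left.trans (subset_union_left.trans (subset_insert _ _)))
  have hSB : ∀ i j, (B i j).coeff.support ⊆ S := fun i j =>
    (hU B i j).trans (subset_union_right.trans (subset_union_left.trans (subset_insert _ _)))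
  have hSf : ∀ i j, ((B * A - 1) i j).coeff.support ⊆ S := fun i j =>
    (hU _ i j).trans (subset_union_right.trans (subset_insert _ _))
  have h1S : (1 : G) ∈ S := mem_insert_self _ _
  obtain ⟨Q, _, f, hQ, hinj, hmul⟩ := h S
  have hf1 : f 1 = 1 := by
    have := hmul 1 h1S 1 h1S
    rw [mul_one] at this
    exact (mul_eq_left.1 this.symm)
  let φ : MonoidAlgebra K G →+ MonoidAlgebra K Q :=
    { toFun := mapDomain f
      map_zero' := mapDomain_zero _
      map_add' := mapDomain_add _ }
  have hφ1 : φ 1 = 1 := by
    change mapDomain f (single 1 1) = single 1 1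
    rw [mapDomain_single, hf1]
  have hφmul : ∀ C D : Matrix (Fin n) (Fin n) (MonoidAlgebra K G),
      (∀ i j, (C i j).coeff.support ⊆ S) → (∀ i j, (D i j).coeff.support ⊆ S) →
      (C * D).map φ = C.map φ * D.map φ := by
    intro C D hC hD
    refine Matrix.ext fun i j => ?_
    rw [Matrix.map_apply, Matrix.mul_apply, Matrix.mul_apply, map_sum]
    refine sum_congr rfl fun k _ => ?_
    exact mapDomain_mul_of_local f S hmul _ _ (hC i k) (hD k j)
  have hone : (1 : Matrix (Fin n) (Fin n) (MonoidAlgebra K G)).map φ = 1 := by
    refine Matrix.ext fun i j => ?_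
    rw [Matrix.map_apply, Matrix.one_apply, Matrix.one_apply]
    split_ifs
    · exact hφ1
    · exact map_zero φ
  have h1 : A.map φ * B.map φ = 1 := by rw [← hφmul A B hSA hSB, hAB, hone]
  have h2 : B.map φ * A.map φ = 1 := mul_eq_one_comm.1 h1
  have h3 : (B * A - 1).map φ = 0 := by
    have : (B * A - 1).map φ = (B * A).map φ - (1 : Matrix _ _ _).map φ := by
      refine Matrix.ext fun i j => ?_
      simp [Matrix.map_apply]
    rw [this, hφmul B A hSB hSA, h2, hone, sub_self]
  have h4 : B * A - 1 = 0 := by
    refine Matrix.ext fun i j => ?_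
    refine mapDomain_eq_zero_of_local f S hinj _ (hSf i j) ?_
    exact congrFun (congrFun h3 i) j
  exact sub_eq_zero.1 h4

end locEmb

section finiteIndex

variable {K : Type*} [DivisionRing K] {G : Type*} [Group G] (H : Subgroup G)

lemma mk_out (b : G ⧸ H) : (QuotientGroup.mk b.out : G ⧸ H) = b := Quotient.out_eq' b

/-- Restriction of an element of the group algebra to a subgroup. -/
noncomputable def restr : MonoidAlgebra K G →+ MonoidAlgebra K H :=
  MonoidAlgebra.comapDomainAddMonoidHom (Subtype.val : H → G) Subtype.val_injective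

lemma restr_coeff (x : MonoidAlgebra K G) (h : H) : (restr H x).coeff h = x.coeff h := rfl


open Classical in
lemma restr_single (g : G) (c : K) : restr H (single g c) =
    if h : g ∈ H then (single (⟨g, h⟩ : H) c : MonoidAlgebra K H) else 0 := by
  ext h
  rw [restr_coeff, coeff_single]
  split_ifs with hg
  · rw [coeff_single, Finsupp.single_apply, Finsupp.single_apply]
    simp only [Subtype.ext_iff]
  · rw [Finsupp.single_apply, if_neg]
    · rfl
    · intro he
      exact hg (he ▸ h.2)

/-- The inclusion of group algebras. -/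
noncomputable def incl : MonoidAlgebra K H →+* MonoidAlgebra K G :=
  MonoidAlgebra.mapDomainRingHom K H.subtype

lemma incl_single (h : H) (c : K) : incl H (single h c) = single (h : G) c := by
  change mapDomain _ _ = _
  rw [mapDomain_single]
  rfl

lemma restr_mul_incl (u : MonoidAlgebra K G) (v : MonoidAlgebra K H) :
    restr H (u * incl H v) = restr H u * v := by
  classical
  induction v using MonoidAlgebra.induction_linear with
  | zero => simp
  | add v w hv hw => rw [map_add, mul_add, map_add, mul_add, hv, hw]
  | single h r =>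
    induction u using MonoidAlgebra.induction_linear with
    | zero => simp
    | add v w hv hw => rw [add_mul, map_add, map_add, add_mul, hv, hw]
    | single g c =>
      rw [incl_single, single_mul_single, restr_single, restr_single]
      by_cases hg : g ∈ H
      · rw [dif_pos hg, dif_pos (H.mul_mem hg h.2), single_mul_single]
        rfl
      · rw [dif_neg hg, dif_neg, zero_mul]
        intro h1
        exact hg ((H.mul_mem_cancel_right h.2).1 h1)

variable [Fintype (G ⧸ H)]

lemma sum_decomp (z : MonoidAlgebra K G) :
    ∑ b : G ⧸ H, single b.out 1 * incl H (restr H (single (b.out)⁻¹ 1 * z)) = z := by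
  classical
  induction z using MonoidAlgebra.induction_linear with
  | zero => simp
  | add z w hz hw =>
    conv_rhs => rw [← hz, ← hw]
    rw [← Finset.sum_add_distrib]
    refine sum_congr rfl fun b _ => ?_
    rw [mul_add, map_add, map_add, mul_add]
  | single g c =>
    have hmk : ∀ b : G ⧸ H, (b.out)⁻¹ * g ∈ H ↔ b = QuotientGroup.mk g := by
      intro b
      rw [← QuotientGroup.eq, mk_out]
    rw [Finset.sum_eq_single (QuotientGroup.mk g : G ⧸ H)]
    · rw [single_mul_single, restr_single, dif_pos ((hmk _).2 rfl), incl_single,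
        single_mul_single, one_mul, one_mul]
      congr 1
      simp
    · intro b _ hb
      rw [single_mul_single, restr_single, dif_neg (fun h => hb ((hmk b).1 h))]
      simp
    · intro h; exact absurd (mem_univ _) h

variable [DecidableEq (G ⧸ H)]

/-- The embedding of `K[G]` into matrices over `K[H]`. -/
noncomputable def matEmb : MonoidAlgebra K G →+* Matrix (G ⧸ H) (G ⧸ H) (MonoidAlgebra K H) where
  toFun x := Matrix.of fun a b => restr H (single (a.out)⁻¹ 1 * x * single b.out 1)
  map_zero' := by
    refine Matrix.ext fun a b => ?_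
    simp
  map_one' := by
    refine Matrix.ext fun a b => ?_
    rw [Matrix.of_apply, mul_one, single_mul_single, mul_one, restr_single, Matrix.one_apply]
    have hmk : (a.out)⁻¹ * b.out ∈ H ↔ a = b := by
      rw [← QuotientGroup.eq, mk_out, mk_out]
    by_cases hab : a = b
    · rw [dif_pos (hmk.2 hab), if_pos hab]
      subst hab
      rw [one_def]
      congr 1
      ext
      simp
    · rw [dif_neg (fun h => hab (hmk.1 h)), if_neg hab]
  map_add' x y := by
    refine Matrix.ext fun a b => ?_
    simp [mul_add, add_mul]
  map_mul' x y := by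
    refine Matrix.ext fun a c => ?_
    rw [Matrix.of_apply, Matrix.mul_apply]
    simp only [Matrix.of_apply]
    conv_lhs =>
      rw [mul_assoc, mul_assoc, ← sum_decomp H (y * single c.out 1), Finset.mul_sum,
        Finset.mul_sum, map_sum]
    refine sum_congr rfl fun b _ => ?_
    rw [← mul_assoc, ← mul_assoc, restr_mul_incl, mul_assoc (single (b.out)⁻¹ 1) y]

lemma matEmb_injective : Function.Injective (matEmb (K := K) H) := by
  rw [injective_iff_map_eq_zero]
  intro x hx
  have h1 : ∀ a b : G ⧸ H, restr H (single (a.out)⁻¹ 1 * x * single b.out 1) = 0 := by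
    intro a b
    exact congrFun (congrFun hx a) b
  let b : G ⧸ H := QuotientGroup.mk 1
  have h2 : x * single b.out 1 = 0 := by
    rw [← sum_decomp H (x * single b.out 1)]
    refine Finset.sum_eq_zero fun a _ => ?_
    rw [← mul_assoc, h1, map_zero, mul_zero]
  have h3 : x * single b.out 1 * single (b.out)⁻¹ 1 = x := by
    rw [mul_assoc, single_mul_single, mul_inv_cancel, mul_one]
    exact mul_one x
  rw [← h3, h2, zero_mul]

end finiteIndex

theorem stablyFinite_of_finiteIndex {K : Type*} [DivisionRing K] {G : Type*} [Group G]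
    (H : Subgroup G) (hfi : H.FiniteIndex) [IsStablyFiniteRing (MonoidAlgebra K H)] :
    IsStablyFiniteRing (MonoidAlgebra K G) := by
  classical
  have : Finite (G ⧸ H) := inferInstance
  have : Fintype (G ⧸ H) := Fintype.ofFinite _
  exact IsStablyFiniteRing.of_injective (matEmb (K := K) H) (matEmb_injective H)

universe u

theorem stablyFinite_of_inClass {K : Type*} [DivisionRing K] (p : ℕ) [CharP K p]
    {G : Type u} [Group G] (hG : InClass p G) : IsStablyFiniteRing (MonoidAlgebra K G) := by
  have hp : p.Prime ∨ p = 0 := CharP.char_is_prime_or_zero K p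
  induction hG with
  | sofic G h => exact sofic_stablyFinite h
  | locEmb G Q f hQ hinj hmul ih =>
    exact ⟨fun n => dedekind_of_locEmb fun S => ⟨Q S, inferInstance, f S,
      (ih S).isDedekindFiniteMonoid n, hinj S, hmul S⟩⟩
  | finiteIndex G H hfi hH ih => exact stablyFinite_of_finiteIndex H hfi
  | extension G N hN hQ ih => exact ⟨fun n => matrix_dedekind hp hN n inferInstance⟩

end Vale.Agent.H15
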